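import Crest.Agent.X212.Qt4.Top
import Crest.Agent.X212.Rf65.Pt

/-!
# Row 212, TW-INS (helper6): a module with a connection inside a wall
-/

set_option autoImplicit false
set_option linter.unusedSectionVars false
noncomputable section
open scoped Manifold ContDiff Topology
open Set Function Filter

namespace Crest.Agent.X212.Ins6
open An M Int54

variable {X : Mf 4} {A κ lam : Type} [Fintype A] [Fintype κ] [Fintype lam] [DecidableEq lam]
  {M : Mark X A κ} {c : M.Cl} {R : A}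

/-- off the outer pieces one is inside -/
theorem inside (C : Caps M) (hR : R ∈ c.1) (hp : ¬M.pin R) (o : Dfl49.Only M c.1 R false) :
    (C.un c {ρ ∈ Rf65.Pc c | M.sys.U ρ ⊆ (M.sys.w R).sd true})ᶜ ⊆ C.φ c '' (M.sys.w R).sd false := by
  have := M.con
  have key : ∀ x ∉ M.sys.cores c.1, x ∈ (M.sys.w R).sd true → ∃ ρ, M.sys.Piece c.1 ρ ∧
      x ∈ M.sys.U ρ ∧ M.sys.U ρ ⊆ (M.sys.w R).sd true := fun x hx k =>
    let ⟨ρ, h1, h2⟩ := Sys.exists_piece c.2 hx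
    let ⟨b, h3⟩ := h1.side c.2 hR
    ⟨ρ, h1, h2, (M.sys.w R).sd_inj (h3 h2) k ▸ h3⟩
  intro z hz
  rcases Cyl58.caps_surj C z with ⟨x, hx, rfl⟩ | ⟨a, h1, h2, b, rfl⟩
  · rcases (M.sys.w R).mem_cases false x with k | k | k
    · exact ⟨x, k, rfl⟩
    · exact (hx (mem_biUnion hR k)).elim
    · obtain ⟨ρ, k1, k2, k3⟩ := key x hx k
      exact (hz (mem_biUnion (x := ρ) ⟨k1, k3⟩ (.inl ⟨x, k2, rfl⟩))).elim
  · obtain ⟨x, hx⟩ := (M.sys.w a).ne b
    have hc : x ∉ M.sys.cores c.1 := fun k => by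
      obtain ⟨a', k1, k2⟩ := mem_iUnion₂.1 k
      by_cases e : a = a'
      · exact (e ▸ k2) b hx.2
      · exact disjoint_left.1 (c.2 h1 k1 e) hx.1 ((M.sys.w a').core_subset k2)
    obtain ⟨ρ, k1, k2, k3⟩ := key x hc ((o a h1).resolve_left (fun e => hp (e ▸ h2)) hx.1)
    exact (hz (mem_biUnion (x := ρ) ⟨k1, k3⟩ (.inr ⟨a, b, h2, k1.eq_some c.2 h1 k2 hx, rfl⟩))).elim

/-- the module inside -/
theorem ins (hM : ∀ Z : Mf 4, Qab60.ModStmt Z.I Z.M (Option κ) lam) {W : World M} {N : ML M lam}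
    (Λ : Lns W N) (m : M.Cl) {p : Prm A} (hO : p ∈ M.O c.1) (o : Dfl49.Only M c.1 R false)
    {w : X.M → Crest.Agent.R208.F.Ext X.E} (h : Rf65.Ref X.I N.p ((M.sys.w R).sd false) w) :
    ∃ x : Cfg (W.Z c).M (Option κ) (lam ⊕ lam) 0,
      Tmp64.AdmOn x (Λ.B m c) (Λ.G m c p) (W.φ c '' (M.sys.w R).sd false) := by
  have hs := o.src W.toCaps
  have hF := (W.L m c).F_vol p
  have hv := (W.ori c).unit_vol (W.F m c p).toPre
  obtain ⟨μ, V, -, k1, k2, -⟩ := hM (W.Z c) ((Λ.Λ m c).ln p) (W.F m c p)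
    (ov (W.o c) (W.F m c p).e) (Λ.B m c) _ _
    ⟨(W.Z c).dim, hF, fun a b c' d => oc_sm a b c' d (W.F m c p).toPre ((W.ori c).vol _).sm, fun x =>
      ⟨fr_pr _ x, (fr_rk _ x).trans (by rw [(W.Z c).dim]; norm_num), fun a b c d => oc_12 a b c d x,
        fun a b c d => oc_23 a b c d x, fun a b c d => oc_34 a b c d x, fun a b c d => oc_P a b c d x,
        hv.oc_nm x (W.Z c).dim⟩⟩
    ((Λ.Λ m c).ln_on p) ((Λ.Λ m c).B_eq (Mark.mem_Ω _ hO)) (o.isOpen W.toCaps)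
    (Qt4.ref_img _ hs ((M.sys.w R).op_sd false) (N.ok.mono (subset_univ _))
      (Lab56.LOn.of_ln ((Λ.Λ m c).ok 0)).on ((Λ.uni m c).mono hs) h)
  exact ⟨⟨μ, V, 0, 0⟩, k1, k2, fun _ _ => contMDiffAt_const, fun _ _ => map_zero _, .inl rfl⟩

end Crest.Agent.X212.Ins6
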