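import Crest.Agent.X212.Ins6.A
import Crest.Agent.X212.Tw55.Defs

/-!
# Row 212, TW-INS (helper6)
-/

set_option autoImplicit false
noncomputable section

namespace Crest.Agent.X212.Ins6
open An M G75

variable {κ lam : Type} [Fintype κ] [Fintype lam] [DecidableEq lam] (Lm : LM κ lam)

/-- **TW-INS** -/
theorem insStmt (hM : ∀ Z : Mf 4, Qab60.ModStmt Z.I Z.M (Option κ) lam) : Tw55.InsStmt Lm :=
  fun S D i _ _ _ J R _ hJ hp h c hR ho _ hσ _ hs e =>
    have o : Dfl49.Only S.M c.1 R false := fun a ha => (em (a = R)).imp_right (ho a ha)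
    (ins hM (D.Λ i) J.m (hJ.memO hσ ⟨J.cl_dom hs, e⟩) o h).imp fun _ k =>
      k.mono (inside D.W.toCaps hR hp o)

end Crest.Agent.X212.Ins6
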